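import Vale.Agent.P269.Gen.Top
import Vale.Agent.P287Q.G.Vir.Defs
import Vale.Agent.P269.Pt.Ops

/-!
# The geometric inputs at the level of numbers and series
-/

set_option linter.unusedSectionVars false

namespace Vale.Agent.P269

open P291Z Set Function Topology Filter MvPolynomial Fock

variable {S Λ Λ₀ R R' J J' K K' I : Type} [Fintype S] [Fintype Λ] [Fintype Λ₀] [Fintype R]
  [Fintype R'] [Fintype J] [Fintype J'] [Fintype K] [Fintype K'] [Fintype I]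

/-- The value of a polynomial in the parameters and the fields. -/
noncomputable def evz (z : (Λ → ℂ) × (J → ℂ)) (f : MvPolynomial J (MvPolynomial Λ ℂ)) : ℂ :=
  eval z.2 (MvPolynomial.map (eval z.1) f)

/-- The map given by polynomials. -/
noncomputable def evσ (σ : J' → MvPolynomial J (MvPolynomial Λ ℂ)) (z : (Λ → ℂ) × (J → ℂ)) :
    (Λ → ℂ) × (J' → ℂ) := (z.1, fun j => evz z (σ j))

open Classical in
/-- Pull-back of classes along a map of invariant sets (junk if `f` does not map `A` to `A'`). -/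
noncomputable def Wt.pb {S' Λ' : Type} [Fintype S'] [Fintype Λ'] (F : Wt S Λ R J)
    (F' : Wt S' Λ' R' J') (f : (Λ → ℂ) × (J → ℂ) → (Λ' → ℂ) × (J' → ℂ))
    (A : Set ((Λ → ℂ) × (J → ℂ))) {A' : Set ((Λ' → ℂ) × (J' → ℂ))} (c : H (F'.X A')) : H (F.X A) :=
  if h : MapsTo f A A' then hpull (fun x => Quo.mk F'.actT ⟨_, h (Quo.out x).2⟩) c else 0

open Classical in
/-- Pull-back of classes from the parameter space (junk if `A` does not lie over `B`). -/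
noncomputable def Wt.pB (F : Wt S Λ R J) (A : Set ((Λ → ℂ) × (J → ℂ))) {B : Set (Λ → ℂ)}
    (c : H (F.Bs B)) : H (F.X A) :=
  if h : MapsTo Prod.fst A B then hpull (fun x => Quo.mk F.actL ⟨_, h (Quo.out x).2⟩) c else 0

/-- An abstract map for a larger presentation. -/
noncomputable def AM.ext {ν κ : Type} (m : AM Λ R J ν κ) (M : R' → R → ℤ)
    (σ : J' → MvPolynomial J (MvPolynomial Λ ℂ)) : AM Λ R' J' ν κ :=
  ⟨m.toAC, fun r => Cv.bz m.L (M r), m.l, fun j z => evz (m.vl z) (σ j)⟩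

/-- An abstract map with another parameter. -/
def AM.atl {ν κ : Type} (m : AM Λ R J ν κ) (l : Λ₀ → ℂ) : AM Λ₀ R J ν κ := ⟨m.toAC, m.L, l, m.y⟩

namespace Fam

variable (F : Fam S Λ R J K)

/-- `E` is the zero set of finitely many homogeneous polynomials in the parameters and the base
fields. -/
def PolE : Prop :=
  ∃ T : Finset (MvPolynomial J (MvPolynomial Λ ℂ)),
    (∀ f ∈ T, ∃ c : R → ℤ, ∀ α ∈ f.support, (∀ j ∈ F.mov, α j = 0) ∧
      ∀ i, ∑ j, α j * F.w j i = c i) ∧ F.E = {z | ∀ f ∈ T, evz z f = 0}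

/-- The shape of the base fields: the `φ i` are free, the other ones that do not vanish are
monomials in them; the contact orders are multiples of `δ`. -/
structure Sh [DecidableEq I] (δ : J → ℕ) (φ : I → J) (n : J → I → ℤ) (ψ : J → (Λ → ℂ) → ℂ) : Prop where
  free : ∀ i, φ i ∉ F.mov ∧ φ i ∉ F.zer ∧ n (φ i) = Pi.single i 1 ∧ ψ (φ i) = 1
  li : LinearIndependent ℤ fun i => F.w (φ i)
  neg : ∀ j i, n j i < 0 → δ (φ i) = 0
  ne : ∀ j ∉ F.mov, j ∉ F.zer → δ j = 0 → ∀ z ∈ F.cone, z.2 j ≠ 0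
  an : ∀ j, ∀ l ∈ F.B, AnalyticAt ℂ (ψ j) l ∧ ψ j l ≠ 0
  wd : ∀ j ∉ F.mov, j ∉ F.zer → F.w j = ∑ i, n j i • F.w (φ i)
  ord : ∀ j ∉ F.mov, j ∉ F.zer → (δ j : ℤ) = ∑ i, n j i * δ (φ i)
  E : ∀ l ∈ F.B, ∀ y : J → ℂ, (∀ j ∈ F.zer, y j = 0) → (∀ j i, n j i < 0 → y (φ i) ≠ 0) →
    ((l, y) ∈ F.E ↔ ∀ j ∉ F.mov, j ∉ F.zer → y j = ψ j l * ∏ i, y (φ i) ^ n j i)
  mv : ∀ j ∈ F.mov, δ j = 0

/-- The divisor of the relative theory. -/
def dvs (δ : J → ℕ) : Set ((Λ → ℂ) × (J → ℂ)) := {z | z ∈ F.cone ∧ ∀ j, δ j ≠ 0 → z.2 j = 0}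

/-- The member with parameter `l`, without the extra torus. -/
@[reducible] def atl (l : Λ → ℂ) : Fam Empty Λ R J K :=
  { F with toWt := F.noS, wk := fun _ => Empty.elim, B := {l} }

/-- The same family with other equations and another semistable locus. -/
@[reducible] def eqs (χ : K' → R → ℤ) (wk : K' → S → ℤ) (G : K' → MvPolynomial J (MvPolynomial Λ ℂ))
    (U : Set ((Λ → ℂ) × (J → ℂ))) : Fam S Λ R J K' := { F with χ := χ, wk := wk, G := G, U := U }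

/-- The fields in `T` become base fields that vanish. -/
@[reducible] def zro (T : Set J) : Fam S Λ R J K := { F with mov := F.mov \ T, zer := F.zer ∪ T }

variable [DecidableEq R]

/-- **The standing hypotheses** for the theory relative to `δ` (`δ = 0`: absolute theory). -/
structure Nice (δ : J → ℕ) : Prop extends F.Good where
  reg : ∃ K₀, F.Reg K₀
  sm : ∃ b, F.Sm b
  pol : F.PolE
  sh : ∃ (n : ℕ) (φ : Fin n → J), ∃ m ψ, F.Sh δ φ m ψ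

/-- The parameter space is compact. -/
abbrev Cp : Prop := CompactSpace (F.Bs F.B)

/-- Admissible global data. -/
structure ExOk (k : ℕ) (e : F.Ex) : Prop where
  sel : ∀ (ν κ : Type) [Fintype ν] [Fintype κ] g d u, F.Sel k g d u (e.P ν κ)
  re : ∀ (ν κ ν' κ' : Type) (a : ν ≃ ν') (b : κ ≃ κ') m, e.P ν' κ' m ↔
    e.P ν κ (m.re (a.sumCongr (b.prodCongr (.refl _))).toEmbedding)
  sub : F.B ⊆ e.B
  ev : e.c ∈ Ch.Hev _

/-- The grading by the polarisation. -/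
def Grd (g : Deg.Grd (R → ℤ)) : Prop := ∀ d, 3 * g.deg d = ∑ r, F.θ r * d r

/-- A target: no base fields, locally regular equations. -/
structure Tg (F : Fam Empty Empty R J K) : Prop extends F.Good where
  reg : ∃ K₀, F.Reg K₀
  mov : F.mov = univ
  B : F.B = univ
  E : F.E = univ

/-- The projective bundle `ℙ(⊕ O(a l))`. -/
noncomputable def proj (F : Fam Empty Empty R J K) {r : ℕ} (a : Fin (r + 1) → R → ℤ)
    (θ : Option R → ℤ) : Fam Empty Empty (Option R) (J ⊕ Fin (r + 1)) K where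
  w := Sum.elim (fun j o => o.elim 0 (F.w j)) fun l o => o.elim 1 (a l)
  wt := fun _ => Empty.elim
  wl := Empty.elim
  θ := θ
  χ := fun k o => o.elim 0 (F.χ k)
  wk := fun _ => Empty.elim
  G := fun k => rename Sum.inl (F.G k)
  B := univ
  U := {z | (z.1, z.2 ∘ .inl) ∈ F.U ∧ z.2 ∘ .inr ≠ 0}
  E := univ
  mov := univ
  zer := ∅

omit [DecidableEq R] in
/-- `F'` is a larger presentation of the family `F`: the fields `φ j` are kept, the fields `s i`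
vanish nowhere and trivialise the additional tori, all fields are polynomials `σ j` on the slice
`s = 1`, and `L' r = ⊗ L^(M r)`. -/
structure Pres (F' : Fam S Λ R' J' K') (φ : J → J') (s : I → J') (M : R' → R → ℤ)
    (σ : J' → MvPolynomial J (MvPolynomial Λ ℂ)) : Prop where
  inj : Injective φ
  wl : F'.wl = F.wl
  B : F'.B = F.B
  σ_φ : ∀ j, σ (φ j) = X j
  σ_s : ∀ i, σ (s i) = 1
  hom : ∀ j', ∀ α ∈ (σ j').support, ∀ r, ∑ j, α j * F.w j r = ∑ r', F'.w j' r' * M r' r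
  homS : ∀ j', ∀ α ∈ (σ j').support, ∀ β ∈ (coeff α (σ j')).support, ∀ a,
    ∑ j, α j * F.wt j a + ∑ x, β x * F.wl x a = F'.wt j' a
  lat_inj : ∀ d : R → ℤ, (∀ r', ∑ r, M r' r * d r = 0) → d = 0
  lat_ker : ∀ d' : R' → ℤ, (∀ i, ∑ r', F'.w (s i) r' * d' r' = 0) →
    ∃ d : R → ℤ, d' = fun r' => ∑ r, M r' r * d r
  lat_onto : ∀ n : I → ℤ, ∃ d' : R' → ℤ, ∀ i, ∑ r', F'.w (s i) r' * d' r' = n i
  cone : ∀ z', z' ∈ F'.cone ↔ ∃ t, IsUnit t ∧ ∃ z ∈ F.cone, z' = F'.actT (1, t) (evσ σ z)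
  mov : ∀ j, φ j ∈ F'.mov ↔ j ∈ F.mov
  zer : ∀ j, φ j ∈ F'.zer ↔ j ∈ F.zer
  E : ∀ l ∈ F.B, ∀ y, (∀ j ∈ F.zer, y j = 0) → (l, y) ∈ F.E
  drop : ∀ j' ∉ range φ, j' ∉ F'.mov → j' ∈ F'.zer ∨ ∃ a, σ j' = C a ∧ ∀ l ∈ F.B, eval l a ≠ 0
  E' : ∀ l ∈ F.B, ∀ y, (∀ j' ∈ F'.zer, y j' = 0) → (∀ i, s i ∉ F'.mov → y (s i) ≠ 0) →
    ((l, y) ∈ F'.E ↔ ∃ t, IsUnit t ∧ ∀ j' ∉ range φ, j' ∉ F'.mov → j' ∉ F'.zer →
      y j' = (F'.actT (1, t) (evσ σ (l, 0))).2 j')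

omit [DecidableEq R] in
/-- The base fields that do not vanish are monomials in those links `s i` that are base fields. -/
def Lnk (s : I → J) : Prop :=
  ∀ j' ∉ F.mov, j' ∉ F.zer → ∃ n : I → ℤ, (∀ i, s i ∈ F.mov → n i = 0) ∧
    F.w j' = ∑ i, n i • F.w (s i)

omit [DecidableEq R] in
theorem Lnk.of_abs {F : Fam S Λ R J K} (h : F.movᶜ ⊆ F.zer) (s : I → J) : F.Lnk s :=
  fun _ a b => (b (h a)).elim

omit [DecidableEq R] in
/-- The total space of `F` is the product of `F₀` with the parameter space. -/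
structure TrivC (F₀ : Fam Empty Λ₀ R J K') (l₀ : Λ₀ → ℂ) : Prop where
  w : F₀.w = F.w
  B : F₀.B = {l₀}
  wt : ∀ j, F.wt j = 0 ∨ ∀ z ∈ F.cone, z.2 j = 0
  cone : ∀ l ∈ F.B, ∀ y, (l, y) ∈ F.cone ↔ (l₀, y) ∈ F₀.cone

omit [DecidableEq R] in
/-- `F` is the trivial family with fibre `F₀`. -/
structure Triv (F₀ : Fam Empty Λ₀ R J K') (l₀ : Λ₀ → ℂ) : Prop extends F.TrivC F₀ l₀ where
  θ : F₀.θ = F.θ
  mov : F₀.mov = F.mov
  zer : F₀.zer = F.zer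
  wtz : ∀ j ∉ F.zer, F.wt j = 0
  E : ∀ l ∈ F.B, ∀ y, (∀ j ∈ F.zer, y j = 0) → ((l, y) ∈ F.E ↔ (l₀, y) ∈ F₀.E)

end Fam

/-- The factor is defined on the moduli space. -/
def Fac.Ok {ν κ : Type} (F : Fam S Λ R J K) (u : ν → J → ℕ) : Fac F.toWt ν κ → Prop
  | .ev n A _ => {z | z ∈ F.cone ∧ ∀ n', n = .inl n' → ∀ j, u n' j ≠ 0 → z.2 j = 0} ⊆ A
  | .par A _ => F.B ⊆ A
  | _ => True

namespace St

/-- The integrals do not depend on `D`. -/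
def Well : Prop :=
  ∀ {S Λ R J K ν κ : Type} [Fintype S] [Fintype Λ] [Fintype R] [Fintype J] [Fintype K] [Fintype ν]
    [Fintype κ] [DecidableEq R] (F : Fam S Λ R J K) (δ : J → ℕ) (k : ℕ) (g : ℤ) (d : R → ℤ)
    (u : ν → ℕ) (P : AM Λ R J ν κ → Prop) (fs : List (Fac F.toWt ν κ)), F.Nice δ → F.Cp → F.Big k →
    F.Sel k g d (fun n => u n • δ) P → (∀ f ∈ fs, f.Ok F fun n => u n • δ) → (∀ q, .dg q ∈ fs) →
    ∀ᶠ D in atTop, F.inv k g d (fun n => u n • δ) P fs =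
      F.intg (F.vir κ k D g d fun n => u n • δ) P fs

/-- The selectors `True` and `Conn` are admissible. -/
def SelC : Prop :=
  ∀ {S Λ R J K : Type} [Fintype S] [Fintype Λ] [Fintype R] [Fintype J] [Fintype K] [DecidableEq R]
    (F : Fam S Λ R J K) (k : ℕ) (Θ B c), F.Good → F.Big k → F.B ⊆ B → c ∈ Ch.Hev _ →
    F.ExOk k ⟨fun _ _ _ => True, Θ, B, c⟩ ∧ F.ExOk k ⟨fun _ _ m => m.Conn, Θ, B, c⟩

/-- The series exist. -/
def Spec : Prop :=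
  ∀ {S Λ R J K : Type} [Fintype S] [Fintype Λ] [Fintype R] [Fintype J] [Fintype K] [DecidableEq R]
    (F : Fam S Λ R J K) (δ : J → ℕ) (k : ℕ) (e : F.Ex) {A A' : Set _} {V : Type} [AddCommGroup V]
    [Module ℂ V] (p : Par ℂ V) (i : V →ₗ[ℂ] H (F.X A)), F.Nice δ → F.Cp → F.Big k → F.ExOk k e →
    F.cone ⊆ A → IsEv p (parH _) i →
    (δ = 0 → ∀ d j l₁ l₂, F.serA k e p i d j (monT p l₁ l₂) =
      F.cor k e 0 A A d j (l₁.map (Prod.map id i)) l₂ []) ∧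
    ∀ (D : Deg.Dv) (i' : D.H →ₗ[ℂ] H (F.X A')), F.dvs δ ⊆ A' → IsEv D.p (parH _) i' →
      ∀ d j l₁ l₂ l₃, F.serR k e p i δ D i' d j (monR p D l₁ l₂ l₃) =
        F.cor k e δ A A' d j (l₁.map (Prod.map id i)) l₂ (l₃.map (Prod.map id i'))

/-- Classes only matter through their restrictions to the target and to the divisor. -/
def Res : Prop :=
  ∀ {S Λ R J K : Type} [Fintype S] [Fintype Λ] [Fintype R] [Fintype J] [Fintype K] [DecidableEq R]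
    (F : Fam S Λ R J K) (δ : J → ℕ) (k : ℕ) (e : F.Ex) {A A' : Set _} (h : F.cone ⊆ A)
    (h' : F.dvs δ ⊆ A'), F.Nice δ → F.Cp → F.Big k → F.ExOk k e → ∀ d j l₁ l₂ l₃,
    F.cor k e δ A A' d j l₁ l₂ l₃ = F.cor k e δ _ _ d j (l₁.map (Prod.map id (F.rs h))) l₂
      (l₃.map (Prod.map id (F.rs h')))

/-- Classes of the parameter space can be moved out of an insertion. -/
def PE : Prop :=
  ∀ {S Λ R J K : Type} [Fintype S] [Fintype Λ] [Fintype R] [Fintype J] [Fintype K] [DecidableEq R]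
    (F : Fam S Λ R J K) (δ : J → ℕ) (k : ℕ) (P Θ B) (c₀ c : H (F.Bs B)) {A A' : Set _},
    F.cone ⊆ A → F.dvs δ ⊆ A' → MapsTo Prod.fst A B → F.Nice δ → F.Cp → F.Big k →
    F.ExOk k ⟨P, Θ, B, c₀⟩ → c ∈ Ch.Hev _ → ∀ d j m a l₁ l₂ l₃,
    F.cor k ⟨P, Θ, B, c₀⟩ δ A A' d j ((m, F.pB A c * a) :: l₁) l₂ l₃ =
      F.cor k ⟨P, Θ, B, c₀ * c⟩ δ A A' d j ((m, a) :: l₁) l₂ l₃

/-- A nonzero invariant comes from a stable map, and the contact orders add up to the degrees. -/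
def Supp : Prop :=
  ∀ {S Λ R J K ν κ : Type} [Fintype S] [Fintype Λ] [Fintype R] [Fintype J] [Fintype K] [Fintype ν]
    [Fintype κ] [DecidableEq R] (F : Fam S Λ R J K) (δ : J → ℕ) (k : ℕ) (g : ℤ) (d : R → ℤ)
    (u : ν → ℕ) (P : AM Λ R J ν κ → Prop) (fs : List (Fac F.toWt ν κ)), F.Nice δ → F.Big k →
    F.inv k g d (fun n => u n • δ) P fs ≠ 0 →
    (∃ m, m.Sol F ∧ m.Stable F.θ ∧ m.Typ g d ∧ P m) ∧
      ∀ j ∉ F.mov, j ∉ F.zer → ∑ r, F.w j r * d r = ∑ n, (u n * δ j : ℕ)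

/-- The invariants are odd or even according to the parity of the classes. -/
def Par : Prop :=
  ∀ {S Λ R J K : Type} [Fintype S] [Fintype Λ] [Fintype R] [Fintype J] [Fintype K] [DecidableEq R]
    (F : Fam S Λ R J K) (δ : J → ℕ) (k : ℕ) (e : F.Ex) {A A' : Set _}, F.cone ⊆ A → F.dvs δ ⊆ A' →
    F.Nice δ → F.Cp → F.Big k → F.ExOk k e → ∀ d j l₁ l₂ l₃,
    F.cor k e δ A A' d j (l₁.map (Prod.map id (parH _).σ)) l₂ (l₃.map (Prod.map id (parH _).σ)) =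
      F.cor k e δ A A' d j l₁ l₂ l₃

/-- The basic properties of the absolute series. -/
def OkA : Prop :=
  ∀ {S Λ R J K : Type} [Fintype S] [Fintype Λ] [Fintype R] [Fintype J] [Fintype K] [DecidableEq R]
    (F : Fam S Λ R J K) (k : ℕ) (e : F.Ex) {A : Set _} (C : Deg.Coh) (i : C.H →ₗ[ℂ] H (F.X A))
    (g : Deg.Grd (R → ℤ)) (b : J), F.Nice 0 → F.Cp → F.Big k → F.ExOk k e → F.cone ⊆ A →
    IsEv C.p (parH _) i → F.Grd g → b ∉ F.mov → b ∉ F.zer → (∀ d, g.ξ d = ∑ r, F.w b r * d r) →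
    (F.serA k e C.p i).Abs g

/-- The basic properties of the relative series. -/
def OkR : Prop :=
  ∀ {S Λ R J K : Type} [Fintype S] [Fintype Λ] [Fintype R] [Fintype J] [Fintype K] [DecidableEq R]
    [DecidableEq J] (F : Fam S Λ R J K) (b : J) (k : ℕ) (e : F.Ex) {A A' : Set _} (C : Deg.Coh)
    (i : C.H →ₗ[ℂ] H (F.X A)) (D : Deg.Dv) (i' : D.H →ₗ[ℂ] H (F.X A')) (g : Deg.Grd (R → ℤ)),
    F.Nice (Pi.single b 1) → F.Cp → F.Big k → F.ExOk k e → F.cone ⊆ A →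
    F.dvs (Pi.single b 1) ⊆ A' → IsEv C.p (parH _) i → IsEv D.p (parH _) i' → F.Grd g →
    b ∉ F.mov → b ∉ F.zer →
    ((∀ d, g.ξ d = -∑ r, F.w b r * d r) → (F.serR k e C.p i (Pi.single b 1) D i').RelL g) ∧
    ((∀ d, g.ξ d = ∑ r, F.w b r * d r) → (F.serR k e C.p i (Pi.single b 1) D i').RelR g)

/-- The empty curve. -/
def Norm : Prop :=
  ∀ {Λ R J K : Type} [Fintype Λ] [Fintype R] [Fintype J] [Fintype K] [DecidableEq R]
    (F : Fam Empty Λ R J K) (δ : J → ℕ) (k : ℕ) (Θ : MvPolynomial (J × ℕ) ℂ) (A A' : Set _) (l),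
    F.Nice δ → F.B = {l} → F.Big k →
    F.cor k (F.exT Θ) δ A A' 0 0 [] [] [] = eval (fun x => if x.2 = 0 then 1 else 0) Θ

/-- The diagonal class of a target. -/
def Cas : Prop :=
  ∀ {Λ R J K : Type} [Fintype Λ] [Fintype R] [Fintype J] [Fintype K] [DecidableEq R]
    (F : Fam Empty Λ R J K) (l) (C : Deg.Coh) (i : C.H →ₗ[ℂ] H (F.X F.cone)), F.Nice 0 →
    F.B = {l} → F.IsCoh C i → F.IsCas (i ∘ C.fr.e) (i ∘ C.fr.f)

/-- The diagonal class of a trivial family. -/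
def CasT : Prop :=
  ∀ {S Λ Λ₀ R J K K' β : Type} [Fintype S] [Fintype Λ] [Fintype Λ₀] [Fintype R] [Fintype J]
    [Fintype K] [Fintype K'] [Fintype β] [DecidableEq R] (F : Fam S Λ R J K)
    (F₀ : Fam Empty Λ₀ R J K') (l₀) (a a' : β → H (F₀.X F₀.cone)), F.Nice 0 → F.Cp → F₀.Nice 0 →
    F.TrivC F₀ l₀ → F₀.IsCas a a' →
    F.IsCas (fun b => F.pb F₀.toWt (fun z => (l₀, z.2)) _ (a b))
      fun b => F.pb F₀.toWt (fun z => (l₀, z.2)) _ (a' b)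

/-- The splitting of a persistent node. -/
def Node : Prop :=
  ∀ {Λ R J K : Type} [Fintype Λ] [Fintype R] [Fintype J] [Fintype K] [DecidableEq R]
    (F : Fam Empty Λ R J K) (l) (k : ℕ) (C : Deg.Coh) (i : C.H →ₗ[ℂ] H (F.X F.cone)), F.Nice 0 →
    F.B = {l} → F.Big k → F.IsCoh C i → (F.serA k F.ex0 C.p i).Node

/-- The members and the pieces of a degeneration satisfy the standing hypotheses. -/
def DegN : Prop :=
  ∀ {S Λ₀ R J K : Type} [Fintype S] [Fintype Λ₀] [Fintype R] [Fintype J] [Fintype K] [DecidableEq R]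
    [DecidableEq J] (F : Fam S (Option Λ₀) R J K) (i b c B₀ Ω), F.Deg i b c B₀ Ω → F.Good →
    (∃ K₀, F.Reg K₀) → (∃ n, ∀ l : B₀, Holo.IsMfd Subtype.val n l) →
    (F.sub (slab B₀ 0) {b}).Nice (Pi.single c 1) ∧ (F.sub (slab B₀ 0) {c}).Nice (Pi.single b 1) ∧
      (F.sub (slab B₀ 0) {b, c}).Nice 0 ∧
      (F.wl none = 0 → ∀ t ∈ Ω, t ≠ 0 → (F.sub (slab B₀ t) ∅).Nice 0)

/-- **The degeneration formula.** -/
def G1 : Prop :=
  ∀ {R J K : Type} [Fintype R] [Fintype J] [Fintype K] [DecidableEq R] [DecidableEq J]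
    (F : Fam Empty (Option Empty) R J K) (i b c Ω) (k : ℕ) (t : ℂ) (g : Deg.Grd (R → ℤ))
    (D : Deg.Dv) (i' : D.H →ₗ[ℂ] H (F.X (F.sub (slab univ 0) {b, c}).cone)) {V : Type}
    [AddCommGroup V] [Module ℂ V] (p : Fock.Par ℂ V) (w : V →ₗ[ℂ] H (F.X F.cone)),
    F.Deg i b c univ Ω → F.Good → (∃ K₀, F.Reg K₀) → F.Big k → t ∈ Ω → t ≠ 0 → F.Grd g →
    (∀ d, g.ξ d = d i) → IsEv D.p (parH _) i' →
    (F.sub (slab univ 0) {b, c}).IsCas (i' ∘ D.fr.e) (i' ∘ D.fr.f) → IsEv p (parH _) w →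
    ∀ β j x, g.ξ β = 0 → (F.sub (slab univ t) ∅).serA k F.ex0 p w β j x =
      Deg.glue g ((F.sub (slab univ 0) {b}).serR k F.ex0 p w (Pi.single c 1) D i')
        ((F.sub (slab univ 0) {c}).serR k F.ex0 p w (Pi.single b 1) D i') β j
        (Fock.map _ (Deg.isEv_diag _) x)

/-- **The two divisors of a marked point commute.** -/
def G2 : Prop :=
  ∀ {S Λ₀ R J K N : Type} [Fintype S] [Fintype Λ₀] [Fintype R] [Fintype J] [Fintype K] [Fintype N]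
    [DecidableEq R] [DecidableEq J] (F : Fam S (Option Λ₀) R J K) (i b c B₀ Ω) (k : ℕ)
    (g : Deg.Grd (R → ℤ)) (D : Deg.Dv) (i' : D.H →ₗ[ℂ] H (F.X (F.sub (slab B₀ 0) {b, c}).cone))
    {V : Type} [AddCommGroup V] [Module ℂ V] (p : Fock.Par ℂ V) (w : V →ₗ[ℂ] H (F.X F.cone))
    (e f : N → H (F.Bs (slab B₀ 0))),
    F.Deg i b c B₀ Ω → F.Good → (∃ K₀, F.Reg K₀) → (∃ n, ∀ l : B₀, Holo.IsMfd Subtype.val n l) →
    F.Big k → CompactSpace (F.Bs (slab B₀ 0)) → F.Grd g → (∀ d, g.ξ d = d i) → IsEv D.p (parH _) i' →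
    (F.sub (slab B₀ 0) {b, c}).IsCas (i' ∘ D.fr.e) (i' ∘ D.fr.f) → IsEv p (parH _) w →
    F.CasB _ e f → ∀ β j m a a' (α : H (F.X F.cone)) (x : Fock.S (p.fs ℕ)), g.ξ β = 0 →
    w a = F.lc _ (F.wt c) (F.w c) * α → w a' = F.lc _ (F.wt b) (F.w b) * α →
    ∑ q, Deg.glue g ((F.sub (slab B₀ 0) {b}).serR k (F.exB (e q)) p w (Pi.single c 1) D i')
      ((F.sub (slab B₀ 0) {c}).serR k (F.exB (f q)) p w (Pi.single b 1) D i') β j
      ((ι _ ((Finsupp.single m a, 0), 0) - ι _ (0, (Finsupp.single m a', 0))) *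
        Fock.map _ (Deg.isEv_diag (Deg.pT p))
          (Fock.map _ (Deg.isEv_inl _ (Fock.Par.triv ℂ Deg.NN)) x)) = 0

/-- **Independence of the equations.** -/
def E0 : Prop :=
  ∀ {S Λ R J K K' : Type} [Fintype S] [Fintype Λ] [Fintype R] [Fintype J] [Fintype K] [Fintype K']
    [DecidableEq R] (F : Fam S Λ R J K) (χ : K' → R → ℤ) (wk G U) (δ : J → ℕ) (k : ℕ) (e : F.Ex)
    {A A' : Set _}, (F.eqs χ wk G U).cone = F.cone → F.Nice δ → (F.eqs χ wk G U).Nice δ → F.Cp →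
    F.Big k → F.ExOk k e → F.cone ⊆ A → F.dvs δ ⊆ A' → ∀ d j l₁ l₂ l₃,
    (F.eqs χ wk G U).cor k e δ A A' d j l₁ l₂ l₃ = F.cor k e δ A A' d j l₁ l₂ l₃

/-- Movable fields that vanish on the target can be replaced by vanishing base fields. -/
def Z0 : Prop :=
  ∀ {S Λ R J K : Type} [Fintype S] [Fintype Λ] [Fintype R] [Fintype J] [Fintype K] [DecidableEq R]
    (F : Fam S Λ R J K) (T : Set J) (δ : J → ℕ) (k : ℕ) (e : F.Ex) {A A' : Set _},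
    T ⊆ F.mov → (∀ j ∈ T, ∀ z ∈ F.cone, z.2 j = 0) → F.Nice δ → (F.zro T).Nice δ → F.Cp → F.Big k →
    F.ExOk k e → F.cone ⊆ A → F.dvs δ ⊆ A' → ∀ d j l₁ l₂ l₃,
    (F.zro T).cor k e δ A A' d j l₁ l₂ l₃ = F.cor k e δ A A' d j l₁ l₂ l₃

/-- **Independence of the presentation**, of the polarisation and of `k` (absolute theory). -/
def Pres : Prop :=
  ∀ {S Λ R R' J J' K K' I : Type} [Fintype S] [Fintype Λ] [Fintype R] [Fintype R'] [Fintype J]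
    [Fintype J'] [Fintype K] [Fintype K'] [Fintype I] [DecidableEq R] [DecidableEq R']
    (F : Fam S Λ R J K) (F' : Fam S Λ R' J' K') (φ) (s : I → J') (M σ) (k k' : ℕ)
    (P : ∀ ν κ : Type, AM Λ R J ν κ → Prop) (P' : ∀ ν κ : Type, AM Λ R' J' ν κ → Prop)
    (Θ : MvPolynomial (J × ℕ) ℂ) {A : Set _},
    F.Pres F' φ s M σ → F.movᶜ ⊆ F.zer → F'.Lnk s → F.Nice 0 → F'.Nice 0 → F.Cp → F.Big k →
    F'.Big k' → F.ExOk k ⟨P, Θ, univ, 1⟩ → F'.ExOk k' ⟨P', rename (Prod.map φ id) Θ, univ, 1⟩ →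
    (∀ ν κ m, m.Sol F → (P ν κ m ↔ P' ν κ (m.ext M σ))) → F'.cone ⊆ A → ∀ j l₁ l₂,
      (∀ d, F'.cor k' ⟨P', rename (Prod.map φ id) Θ, univ, 1⟩ 0 A A (fun r' => ∑ r, M r' r * d r)
          j l₁ l₂ [] =
        F.cor k ⟨P, Θ, univ, 1⟩ 0 F.cone F.cone d j
          (l₁.map (Prod.map id (F.pb F'.toWt (evσ σ) F.cone))) l₂ []) ∧
      ∀ d', (∀ d : R → ℤ, d' ≠ fun r' => ∑ r, M r' r * d r) →
        F'.cor k' ⟨P', rename (Prod.map φ id) Θ, univ, 1⟩ 0 A A d' j l₁ l₂ [] = 0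

/-- The same for links that are not declared to vanish. -/
def PresZ : Prop :=
  ∀ {S Λ R R' J J' K K' I : Type} [Fintype S] [Fintype Λ] [Fintype R] [Fintype R'] [Fintype J]
    [Fintype J'] [Fintype K] [Fintype K'] [Fintype I] [DecidableEq R] [DecidableEq R']
    (F : Fam S Λ R J K) (F' : Fam S Λ R' J' K') (φ) (s : I → J') (M σ) (k k' : ℕ)
    (P : ∀ ν κ : Type, AM Λ R J ν κ → Prop) (P' : ∀ ν κ : Type, AM Λ R' J' ν κ → Prop)
    (Θ : MvPolynomial (J × ℕ) ℂ) {A : Set _},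
    F.Pres F' φ s M σ → F.movᶜ ⊆ F.zer → F'.Lnk s → (∀ i, s i ∉ F'.zer) → F.Nice 0 → F'.Nice 0 →
    F.Cp → F.Big k → F'.Big k' → F.ExOk k ⟨P, Θ, univ, 1⟩ →
    F'.ExOk k' ⟨P', rename (Prod.map φ id) Θ, univ, 1⟩ →
    (∀ ν κ m, m.Sol F → (P ν κ m ↔ P' ν κ (m.ext M σ))) → F'.cone ⊆ A → ∀ j l₁ l₂,
      (∀ d, F'.cor k' ⟨P', rename (Prod.map φ id) Θ, univ, 1⟩ 0 A A (fun r' => ∑ r, M r' r * d r)
          j l₁ l₂ [] =
        F.cor k ⟨P, Θ, univ, 1⟩ 0 F.cone F.cone d j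
          (l₁.map (Prod.map id (F.pb F'.toWt (evσ σ) F.cone))) l₂ []) ∧
      ∀ d', (∀ d : R → ℤ, d' ≠ fun r' => ∑ r, M r' r * d r) →
        F'.cor k' ⟨P', rename (Prod.map φ id) Θ, univ, 1⟩ 0 A A d' j l₁ l₂ [] = 0

/-- The cohomology does not depend on the presentation. -/
def PresH : Prop :=
  ∀ {S Λ R R' J J' K K' I : Type} [Fintype S] [Fintype Λ] [Fintype R] [Fintype R'] [Fintype J]
    [Fintype J'] [Fintype K] [Fintype K'] [Fintype I] [DecidableEq R] [DecidableEq R']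
    (F : Fam S Λ R J K) (F' : Fam S Λ R' J' K') (φ) (s : I → J') (M σ),
    F.Pres F' φ s M σ → F.movᶜ ⊆ F.zer → F.Nice 0 → F'.Nice 0 → F.Cp →
    ∃ g : H (F'.X F'.cone) ≃ₐ[ℂ] H (F.X F.cone), (∀ c, g c = F.pb F'.toWt (evσ σ) _ c) ∧
      (∀ c, F.intX _ (g c) = F'.intX _ c) ∧ (∀ m c, H.IsDeg m (g c) ↔ H.IsDeg m c) ∧
      ∀ ψ χ, g (F'.lc _ ψ χ) = F.lc _ ψ fun r => ∑ r', χ r' * M r' r

/-- **Deformation invariance.** -/
def Def : Prop :=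
  ∀ {Λ R J K : Type} [Fintype Λ] [Fintype R] [Fintype J] [Fintype K] [DecidableEq R]
    (F : Fam Empty Λ R J K) (k : ℕ) (Θ) {A : Set _} (l l'), F.Nice 0 → F.Big k → F.cone ⊆ A →
    JoinedIn F.B l l' → ∀ d j l₁ l₂,
    (F.sub {l} F.zer).cor k (F.exT Θ) 0 A A d j l₁ l₂ [] =
      (F.sub {l'} F.zer).cor k (F.exT Θ) 0 A A d j l₁ l₂ []

/-- A class of top degree on the parameter space gives the invariants of a member. -/
def Fib : Prop :=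
  ∀ {S Λ R J K : Type} [Fintype S] [Fintype Λ] [Fintype R] [Fintype J] [Fintype K] [DecidableEq R]
    (F : Fam S Λ R J K) (δ : J → ℕ) (k n : ℕ) (c : H (F.Bs F.B)) {A A' : Set _} (l), F.Nice δ →
    F.Cp → ConnectedSpace (F.Bs F.B) → F.Sm (Fintype.card S + n) → H.IsDeg (2 * n) c → F.Big k →
    l ∈ F.B → F.cone ⊆ A → F.dvs δ ⊆ A' → (F.atl l).Nice δ ∧ ∀ d j l₁ l₂ l₃,
    F.cor k (F.exB c) δ A A' d j l₁ l₂ l₃ = F.intB _ c * (F.atl l).cor k (F.atl l).ex0 δ _ _ d j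
      (l₁.map (Prod.map id ((F.atl l).pb F.toWt id (F.atl l).cone))) l₂
      (l₃.map (Prod.map id ((F.atl l).pb F.toWt id ((F.atl l).dvs δ))))

/-- Trivial families. -/
def Triv : Prop :=
  ∀ {S Λ Λ₀ R J K K' : Type} [Fintype S] [Fintype Λ] [Fintype Λ₀] [Fintype R] [Fintype J]
    [Fintype K] [Fintype K'] [DecidableEq R] (F : Fam S Λ R J K) (F₀ : Fam Empty Λ₀ R J K') (l₀)
    (δ : J → ℕ) (k : ℕ) (P : ∀ ν κ : Type, AM Λ R J ν κ → Prop)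
    (P₀ : ∀ ν κ : Type, AM Λ₀ R J ν κ → Prop) (B) (c : H (F.Bs B)) (h : F.B ⊆ B) {A A' A₀ A₀' : Set _},
    F.Nice δ → F.Cp → F₀.Nice δ → F.Triv F₀ l₀ → F.Big k → F₀.Big k → F.ExOk k ⟨P, 1, B, c⟩ →
    F₀.ExOk k ⟨P₀, 1, univ, 1⟩ → (∀ ν κ m, m.Sol F → (P ν κ m ↔ P₀ ν κ (m.atl l₀))) →
    F.cone ⊆ A → F.dvs δ ⊆ A' → MapsTo (fun z => (l₀, z.2)) A A₀ →
    MapsTo (fun z => (l₀, z.2)) A' A₀' → (∀ j ∈ F.zer, ∀ z ∈ A ∪ A', z.2 j = 0) →
    ∀ d j l₁ l₂ l₃, F.cor k ⟨P, 1, B, c⟩ δ A A' d j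
      (l₁.map (Prod.map id (F.pb F₀.toWt (fun z => (l₀, z.2)) A))) l₂
      (l₃.map (Prod.map id (F.pb F₀.toWt (fun z => (l₀, z.2)) A'))) =
    F.intB _ (F.rsB h c) * F₀.cor k ⟨P₀, 1, univ, 1⟩ δ A₀ A₀' d j l₁ l₂ l₃

/-- **Projective bundles.** -/
def Proj : Prop :=
  ∀ {R J K : Type} [Fintype R] [Fintype J] [Fintype K] [DecidableEq R] (F : Fam Empty Empty R J K)
    {r : ℕ} (a : Fin (r + 1) → R → ℤ) (θ), F.Tg → 0 < r → (F.proj a θ).Good →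
    ∀ C i vd, F.Std C i vd → F.Vir C i vd → ∀ C' i' vd', (F.proj a θ).Std C' i' vd' →
    (∀ v v' u', i' v' = (F.proj a θ).pb F.toWt (fun z => (z.1, z.2 ∘ .inl)) _ (i v) →
      i' u' = (F.proj a θ).pb F.toWt (fun z => (z.1, z.2 ∘ .inl)) _ (i (vd.μ v)) →
      vd'.μ v' = u' - (r / 2 : ℂ) • v') →
    (F.proj a θ).Vir C' i' vd'

end St

end Vale.Agent.P269
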